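import Vale.Agent.P181.DH.Defs
import Vale.Agent.P181.SZR3.Col

set_option autoImplicit false

/-!
# P181, DH (H1): the square of the area of a triangle
-/

open MvPolynomial

namespace Vale.Agent.P181.DH.H89

open Vale.Agent.P181.T4 (HW rowOp mem_HW mem_HW_iff_isWeightedHomogeneous rowW)
open Vale.Agent.P181.SZ (TI)
open Vale.Agent.P181.SZR3 (rowD rowD_X rowD_eq)

/-- Twice the area of a triangle. -/
noncomputable def dl {m : ℕ} (r s : Fin m) : MvPolynomial (Fin m × Fin 3) ℂ :=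
  (X (r, 0) * X (s, 1) - X (r, 1) * X (s, 0)) + (X (r, 1) * X (s, 2) - X (r, 2) * X (s, 1)) +
    (X (r, 2) * X (s, 0) - X (r, 0) * X (s, 2))

lemma rename_dl {m : ℕ} (r s : Fin m) (e : Equiv.Perm (Fin 3)) :
    rename (fun p : Fin m × Fin 3 => (p.1, e p.2)) (dl r s) = dl r s ∨
      rename (fun p : Fin m × Fin 3 => (p.1, e p.2)) (dl r s) = - dl r s := by
  have h01 : e 0 ≠ e 1 := fun h => absurd (e.injective h) (by decide)
  have h02 : e 0 ≠ e 2 := fun h => absurd (e.injective h) (by decide)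
  have h12 : e 1 ≠ e 2 := fun h => absurd (e.injective h) (by decide)
  simp only [dl, map_add, map_sub, map_mul, rename_X]
  generalize e 0 = x at *
  generalize e 1 = y at *
  generalize e 2 = z at *
  fin_cases x <;> fin_cases y <;> fin_cases z <;> simp at h01 h02 h12 <;>
    simp only [Fin.mk_zero, Fin.mk_one, Fin.reduceFinMk, Fin.isValue, true_or] <;>
    first
      | (left; ring1)
      | (right; ring1)

lemma rename_dl_sq {m : ℕ} (r s : Fin m) (e : Equiv.Perm (Fin 3)) :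
    rename (fun p : Fin m × Fin 3 => (p.1, e p.2)) (dl r s ^ 2) = dl r s ^ 2 := by
  rw [map_pow]
  rcases rename_dl r s e with h | h
  · rw [h]
  · rw [h, neg_sq]

lemma sum_pderiv_dl {m : ℕ} {r s : Fin m} (i : Fin m) :
    ∑ j, pderiv (i, j) (dl r s) = 0 := by
  rw [Fin.sum_univ_three]
  simp only [dl, map_add, map_sub, Derivation.leibniz, SZR3.pderiv_X', smul_eq_mul, Prod.mk.injEq]
  by_cases h1 : r = i <;> by_cases h2 : s = i <;> simp [h1, h2] <;> ring

lemma sum_pderiv_dl_sq {m : ℕ} {r s : Fin m} (i : Fin m) :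
    ∑ j, pderiv (i, j) (dl r s ^ 2) = 0 := by
  have h : ∀ j, pderiv (i, j) (dl r s ^ 2) = (2 * dl r s) * pderiv (i, j) (dl r s) := by
    intro j
    rw [sq, Derivation.leibniz]
    simp only [smul_eq_mul]
    ring
  rw [Finset.sum_congr rfl fun j _ => h j, ← Finset.mul_sum, sum_pderiv_dl, mul_zero]

lemma rowD_dl {m : ℕ} {r s a i : Fin m} (hr : r ≠ i) (hs : s = i → a = r) :
    rowD a i (dl r s) = 0 := by
  simp only [dl, map_add, map_sub, Derivation.leibniz, rowD_X, smul_eq_mul, if_neg hr]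
  by_cases h : s = i
  · simp only [if_pos h, hs h]
    ring
  · simp only [if_neg h]
    ring

lemma rowOp_dl_sq {m : ℕ} {r s a i : Fin m} (hr : r ≠ i) (hs : s = i → a = r) :
    rowOp a i (dl r s ^ 2) = 0 := by
  rw [← rowD_eq, sq, Derivation.leibniz, rowD_dl hr hs, smul_zero, add_zero]

lemma wh_dl {m : ℕ} (r s : Fin m) :
    IsWeightedHomogeneous (rowW m (Fin 3)) (dl r s) (Pi.single r 1 + Pi.single s 1) := by
  have h : ∀ j k : Fin 3, IsWeightedHomogeneous (rowW m (Fin 3))
      (X (r, j) * X (s, k) : MvPolynomial (Fin m × Fin 3) ℂ) (Pi.single r 1 + Pi.single s 1) :=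
    fun j k => (isWeightedHomogeneous_X ℂ (rowW m (Fin 3)) (r, j)).mul
      (isWeightedHomogeneous_X ℂ (rowW m (Fin 3)) (s, k))
  have hs : ∀ {p q : MvPolynomial (Fin m × Fin 3) ℂ} {n : Fin m → ℕ},
      IsWeightedHomogeneous (rowW m (Fin 3)) p n → IsWeightedHomogeneous (rowW m (Fin 3)) q n →
      IsWeightedHomogeneous (rowW m (Fin 3)) (p - q) n := by
    intro p q n hp hq
    exact (weightedHomogeneousSubmodule ℂ (rowW m (Fin 3)) n).sub_mem hp hq
  have ha : ∀ {p q : MvPolynomial (Fin m × Fin 3) ℂ} {n : Fin m → ℕ},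
      IsWeightedHomogeneous (rowW m (Fin 3)) p n → IsWeightedHomogeneous (rowW m (Fin 3)) q n →
      IsWeightedHomogeneous (rowW m (Fin 3)) (p + q) n := by
    intro p q n hp hq
    exact (weightedHomogeneousSubmodule ℂ (rowW m (Fin 3)) n).add_mem hp hq
  exact ha (ha (hs (h 0 1) (h 1 0)) (hs (h 1 2) (h 2 1))) (hs (h 2 0) (h 0 2))

lemma dl_sq_mem_HW {m : ℕ} {r s : Fin m} (hr : ∀ a i : Fin m, a < i → r ≠ i)
    (hs : ∀ a i : Fin m, a < i → s = i → a = r) :
    dl r s ^ 2 ∈ HW m (Fin 3) (2 • (Pi.single r 1 + Pi.single s 1)) := by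
  rw [mem_HW_iff_isWeightedHomogeneous]
  exact ⟨(wh_dl r s).pow 2, fun a i h => rowOp_dl_sq (hr a i h) (hs a i h)⟩

lemma XX {m : ℕ} (p q : Fin m × Fin 3) : (X p * X q : MvPolynomial (Fin m × Fin 3) ℂ) =
    monomial (Finsupp.single p 1 + Finsupp.single q 1) 1 := by
  rw [X, X, monomial_mul, one_mul]

/-- The column degrees of the area. -/
lemma col_dl {m : ℕ} (r s : Fin m) (v : Fin m × Fin 3 →₀ ℕ) (hv : coeff v (dl r s) ≠ 0)
    (j : Fin 3) : ∑ i, v (i, j) ≤ 1 := by
  classical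
  by_contra hj
  apply hv
  have h : ∀ x y : Fin 3, x ≠ y → coeff v (X (r, x) * X (s, y) : MvPolynomial _ ℂ) = 0 := by
    intro x y hxy
    rw [XX, coeff_monomial, if_neg]
    intro h1
    apply hj
    rw [← h1]
    simp only [Finsupp.add_apply, Finset.sum_add_distrib]
    have h2 : ∀ (k : Fin m) (z : Fin 3), ∑ i, (Finsupp.single (k, z) 1 : Fin m × Fin 3 →₀ ℕ) (i, j) =
        if z = j then 1 else 0 := by
      intro k z
      simp only [Finsupp.single_apply, Prod.mk.injEq]
      by_cases hz : z = j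
      · simp [hz]
      · simp [hz]
    rw [h2, h2]
    by_cases hx : x = j
    · rw [if_pos hx, if_neg (fun hy => hxy (hx.trans hy.symm))]
    · rw [if_neg hx]
      split_ifs <;> omega
  simp only [dl, coeff_add, coeff_sub]
  rw [h 0 1 (by decide), h 1 0 (by decide), h 1 2 (by decide), h 2 1 (by decide),
    h 2 0 (by decide), h 0 2 (by decide)]
  ring

lemma col_dl_sq {m : ℕ} (r s : Fin m) (v : Fin m × Fin 3 →₀ ℕ) (hv : coeff v (dl r s ^ 2) ≠ 0)
    (j : Fin 3) : ∑ i, v (i, j) ≤ 2 := by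
  classical
  rw [sq, coeff_mul] at hv
  obtain ⟨⟨u1, u2⟩, hu, h⟩ := Finset.exists_ne_zero_of_sum_ne_zero hv
  rw [Finset.HasAntidiagonal.mem_antidiagonal] at hu
  have h1 := col_dl r s u1 (left_ne_zero_of_mul h) j
  have h2 := col_dl r s u2 (right_ne_zero_of_mul h) j
  rw [← hu]
  simp only [Finsupp.add_apply, Finset.sum_add_distrib]
  omega

/-- Setting variables to zero. -/
lemma coeff_kill {κ : Type} [DecidableEq κ] (E : κ →₀ ℕ) (P : MvPolynomial κ ℂ) :
    coeff E (aeval (fun k => if E k = 0 then (0 : MvPolynomial κ ℂ) else X k) P) = coeff E P := by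
  classical
  conv_lhs => rw [P.as_sum, map_sum, coeff_sum]
  conv_rhs => rw [P.as_sum, coeff_sum]
  refine Finset.sum_congr rfl fun u _ => ?_
  rw [aeval_monomial]
  by_cases h : ∀ k ∈ u.support, E k ≠ 0
  · have h1 : (u.prod fun k n => (if E k = 0 then (0 : MvPolynomial κ ℂ) else X k) ^ n) =
        u.prod fun k n => X k ^ n := by
      refine Finset.prod_congr rfl fun k hk => ?_
      beta_reduce
      rw [if_neg (h k hk)]
    rw [h1]
    exact congrArg _ (monomial_eq).symm
  · push Not at h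
    obtain ⟨k, hk, hk0⟩ := h
    have h1 : (u.prod fun k n => (if E k = 0 then (0 : MvPolynomial κ ℂ) else X k) ^ n) = 0 := by
      refine Finset.prod_eq_zero hk ?_
      beta_reduce
      rw [if_pos hk0, zero_pow (Finsupp.mem_support_iff.1 hk)]
    rw [h1, mul_zero, coeff_zero, coeff_monomial, if_neg]
    intro h2
    rw [h2] at hk
    exact (Finsupp.mem_support_iff.1 hk) hk0

/-- The monomial `x₀² y₁ y₂`. -/
noncomputable def ev {m : ℕ} (r s : Fin m) : Fin m × Fin 3 →₀ ℕ :=
  (Finsupp.single (r, 0) 1 + Finsupp.single (s, 1) 1) +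
    (Finsupp.single (r, 0) 1 + Finsupp.single (s, 2) 1)

lemma coeff_dl_sq {m : ℕ} {r s : Fin m} (hrs : r ≠ s) : coeff (ev r s) (dl r s ^ 2) = -2 := by
  classical
  have h0 : ∀ p, ev r s p = (if (r, 0) = p then 2 else 0) + (if (s, 1) = p then 1 else 0) +
      (if (s, 2) = p then 1 else 0) := by
    intro p
    simp only [ev, Finsupp.add_apply, Finsupp.single_apply]
    split_ifs <;> rfl
  rw [← coeff_kill, map_pow]
  have h1 : aeval (fun k => if ev r s k = 0 then (0 : MvPolynomial (Fin m × Fin 3) ℂ) else X k)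
      (dl r s) = X (r, 0) * X (s, 1) - X (r, 0) * X (s, 2) := by
    simp only [dl, map_add, map_sub, map_mul, aeval_X, h0]
    simp [hrs, Ne.symm hrs]
    ring
  have h2 : (X (r, 0) * X (s, 1) - X (r, 0) * X (s, 2) : MvPolynomial (Fin m × Fin 3) ℂ) ^ 2 =
      (X (r, 0) * X (s, 1)) * (X (r, 0) * X (s, 1)) -
      2 * ((X (r, 0) * X (s, 1)) * (X (r, 0) * X (s, 2))) +
      (X (r, 0) * X (s, 2)) * (X (r, 0) * X (s, 2)) := by ring
  rw [h1, h2, XX, XX, monomial_mul, monomial_mul, monomial_mul, one_mul]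
  have h3 : (2 : MvPolynomial (Fin m × Fin 3) ℂ) = C 2 := rfl
  have e2 : ((Finsupp.single (r, 0) 1 + Finsupp.single (s, 1) 1) +
      (Finsupp.single (r, 0) 1 + Finsupp.single (s, 2) 1) : Fin m × Fin 3 →₀ ℕ) = ev r s := rfl
  rw [coeff_add, coeff_sub, h3, coeff_C_mul, coeff_monomial, coeff_monomial, coeff_monomial,
    if_neg, if_pos e2, if_neg]
  · ring
  · intro h4
    have h5 := DFunLike.congr_fun h4 (s, 1)
    simp [ev] at h5
  · intro h4
    have h5 := DFunLike.congr_fun h4 (s, 2)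
    simp [ev] at h5

/-- **(H1)** -/
theorem triT : TriT := by
  classical
  intro a m ha
  let r : Fin (m + 2) := 0
  let s : Fin (m + 2) := 1
  have hrs : r ≠ s := by
    intro h
    have := congrArg Fin.val h
    simp [r, s] at this
  have hmu : (fun i : Fin (m + 2) => if (i : ℕ) < 2 then 2 else 0) =
      2 • (Pi.single r 1 + Pi.single s 1) := by
    funext i
    simp only [Pi.smul_apply, Pi.add_apply, Pi.single_apply, smul_eq_mul]
    have hr' : i = r ↔ (i : ℕ) = 0 := by
      rw [Fin.ext_iff]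
      simp [r]
    have hs' : i = s ↔ (i : ℕ) = 1 := by
      rw [Fin.ext_iff]
      simp [s]
    simp only [hr', hs']
    split_ifs <;> omega
  have hr1 : ∀ a i : Fin (m + 2), a < i → r ≠ i := by
    intro a i h1 h2
    have h3 : (a : ℕ) < i := h1
    rw [← h2] at h3
    simp [r] at h3
  have hs1 : ∀ a i : Fin (m + 2), a < i → s = i → a = r := by
    intro a i h1 h2
    have h3 : (a : ℕ) < i := h1
    rw [← h2] at h3
    apply Fin.ext
    simp [r, s] at h3 ⊢
    omega
  refine ⟨dl r s ^ 2, ?_, ev r s, ?_, ?_⟩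
  · rw [hmu]
    exact ⟨dl_sq_mem_HW hr1 hs1, rename_dl_sq r s, fun v hv j => (col_dl_sq r s v hv j).trans ha,
      sum_pderiv_dl_sq⟩
  · rw [coeff_dl_sq hrs]
    norm_num
  · intro c
    fin_cases c
    · exact ⟨r, by simp [ev]⟩
    · exact ⟨s, by simp [ev]⟩
    · exact ⟨s, by simp [ev]⟩

end Vale.Agent.P181.DH.H89
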